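import Vale.Agent.P011UHB.Spec
import Vale.Agent.P011UQ.Tz
import Vale.Agent.P011UP.Lev
import Mathlib.FieldTheory.Galois.Infinite

/-!
Standard endomorphisms, cells and rational points.
-/

set_option autoImplicit false
set_option linter.all false

namespace Vale.Agent.P011UCX

open Matrix Subgroup Vale.Agent.P011L Vale.Agent.P183CH Vale.Agent.P183CH.RG Vale.Agent.P011U
  Vale.Agent.P011UHB Vale.Agent.P011UP
open Vale.Agent.P011UC (pa)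

section

variable {R : RS} {π : Equiv.Perm (Fin R.r)}

theorem pa_apply (π : Equiv.Perm (Fin R.r)) (γ : R.Q) : pa R π γ = pm π γ := rfl

theorem pa_sE (hR : R.Ok) (h : Dg R π) (i : Fin R.r) :
    pa R π * R.sE i * (pa R π)⁻¹ = R.sE (π i) := by
  rw [mul_inv_eq_iff_eq_mul]
  refine LinearEquiv.ext fun γ => ?_
  rw [RS.mul_app, RS.mul_app, hR.sE_apply, hR.sE_apply, pa_apply, pa_apply, pm_s h]

theorem pa_neg {w : R.Aut} (hw : R.Lg Set.univ w) (j : Fin R.r) :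
    (pa R π * w * (pa R π)⁻¹) (R.α j) ≤ 0 := by
  have e : (pa R π)⁻¹ (R.α j) = R.α (π.symm j) := by
    have h1 : pa R π (R.α (π.symm j)) = R.α j := by rw [pa_apply, pm_α, π.apply_symm_apply]
    rw [← h1, RS.inv_app]
  rw [RS.mul_app, RS.mul_app, e]
  exact fun i => hw.2 (π.symm j) trivial _

variable {K G : Type} [Field K] [Group G] {Γ : RG R K G} (hΓ : Γ.Ok) (hR : R.Ok)
  {ψ : G →* G} {σ : K →+* K} {g : G} {c : Fin R.r → Kˣ} (h : Std Γ ψ σ g c π)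

include hΓ hR

theorem cell_one {t : G} (ht : t ∈ Γ.Bo) : Cell Γ t 1 :=
  ⟨t, ht, 1, 1, one_mem _, rep_T (one_mem _), by simp⟩

theorem bo_of_cell {t : G} (ht : Cell Γ t 1) : t ∈ Γ.Bo := by
  obtain ⟨b, hb, n, b', hb', hn, rfl⟩ := ht
  exact mul_mem (mul_mem hb (T_le_Bo (hΓ.rep_one hR hn))) hb'

/-- The intersection of two opposite Borel subgroups. -/
theorem T_of_opp {n b b' : G} {w : R.Aut} (hn : Γ.Rep n w) (hw : R.Lg Set.univ w)
    (hb : b ∈ Γ.Bo) (hb' : b' ∈ Γ.Bo) (e : b * n = n * b') : b ∈ Γ.T := by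
  obtain ⟨u, hu, t, ht, rfl⟩ := hΓ.mem_Bo.1 hb
  obtain ⟨u', hu', t', ht', rfl⟩ := hΓ.mem_Bo.1 hb'
  have h1 : n * u' * n⁻¹ ∈ Γ.V := by
    rw [← VJ_univ]
    exact hΓ.Lg_U hR hn hw (by rwa [UJ_univ])
  have h2 : n * t' * n⁻¹ ∈ Γ.T := hΓ.nm_N_T hR n hn.mem_N t' ht'
  have h3 : u * (t * (n * t' * n⁻¹)⁻¹) = n * u' * n⁻¹ := by
    have e2 : u * t = n * (u' * t') * n⁻¹ := eq_mul_inv_of_mul_eq e
    rw [← mul_assoc, e2]
    group
  have h4 := (hΓ.tri u hu _ (mul_mem ht (inv_mem h2)) (h3 ▸ h1)).1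
  rw [h4, one_mul]
  exact ht

include h

theorem std_par {J : Set (Fin R.r)} (hJ : ∀ i, π i ∈ J ↔ i ∈ J) {p : G} (hp : p ∈ PJ Γ J) :
    g⁻¹ * ψ p * g ∈ PJ Γ J :=
  (sup_le (sup_le (fun v hv => GJ_le_PJ (mem_sup_left (std_X hΓ h hR
      (fun γ e _ => pm_In hJ e) hv))) fun t ht => GJ_le_PJ (mem_sup_right
        (std_T hΓ h ht))) fun v hv => U_le_PJ (std_X hΓ h hR
          (fun γ e _ => pm_nonneg e) hv) : _ ≤ (PJ Γ J).comap
      ((MulAut.conj g).symm.toMonoidHom.comp ψ)) hp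

theorem std_rep {n : G} {w : R.Aut} (hn : Γ.Rep n w) :
    Γ.Rep (g⁻¹ * ψ n * g) (pa R π * w * (pa R π)⁻¹) := by
  refine Rep.ind (P := fun n w => Γ.Rep (g⁻¹ * ψ n * g) (pa R π * w * (pa R π)⁻¹))
    (fun i => ?_) (fun t ht => ?_) (fun n w n' w' _ _ h1 h2 => ?_) (fun n w _ h1 => ?_) hn
  · rw [std_n hΓ h, pa_sE hR h.1]
    have e : g⁻¹ * (g * (Γ.h (π i) (c i) * Γ.n (π i)) * g⁻¹) * g =
        Γ.h (π i) (c i) * Γ.n (π i) := by group
    rw [e]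
    exact (rep_n _).T_mul (h_mem _ _)
  · rw [mul_one, mul_inv_cancel]
    exact rep_T (std_T hΓ h ht)
  · have h3 := h1.mul h2
    have e1 : g⁻¹ * ψ n * g * (g⁻¹ * ψ n' * g) = g⁻¹ * ψ (n * n') * g := by
      rw [map_mul]; group
    have e2 : pa R π * w * (pa R π)⁻¹ * (pa R π * w' * (pa R π)⁻¹) =
        pa R π * (w * w') * (pa R π)⁻¹ := by group
    rwa [e1, e2] at h3
  · have h3 := h1.inv
    have e1 : (g⁻¹ * ψ n * g)⁻¹ = g⁻¹ * ψ n⁻¹ * g := by rw [map_inv]; group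
    have e2 : (pa R π * w * (pa R π)⁻¹)⁻¹ = pa R π * w⁻¹ * (pa R π)⁻¹ := by group
    rwa [e1, e2] at h3

end

section

variable {D : Chev} {k F : Type} [Field k] [Field F] (f : k →+* F)

theorem fm_T {t : D.grp k} (ht : t ∈ (GG D k).T) : fm D f t ∈ (GG D F).T := by
  obtain ⟨s, rfl⟩ := GG_ok.exists_hT ht
  rw [fm_hT]
  exact GG_ok.hT_mem _

theorem fm_X {S : Set D.R.Q} {u : D.grp k} (hu : u ∈ (GG D k).X S) :
    fm D f u ∈ (GG D F).X S :=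
  (X_le (K := ((GG D F).X S).comap (fm D f)) fun γ h1 h2 a => by
    rw [mem_comap, fm_x]
    exact x_mem h2 h1 _) hu

theorem fm_Bo {b : D.grp k} (hb : b ∈ (GG D k).Bo) : fm D f b ∈ (GG D F).Bo :=
  (sup_le (fun u hu => U_le_Bo (fm_X f hu)) (fun t ht => T_le_Bo (fm_T f ht)) :
    _ ≤ ((GG D F).Bo).comap (fm D f)) hb

theorem fm_rep {n : D.grp k} {w : D.R.Aut} (hn : (GG D k).Rep n w) :
    (GG D F).Rep (fm D f n) w := by
  refine Rep.ind (P := fun n w => (GG D F).Rep (fm D f n) w)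
    (fun i => ?_) (fun t ht => rep_T (fm_T f ht)) (fun n w n' w' _ _ h1 h2 => ?_)
    (fun n w _ h1 => ?_) hn
  · rw [fm_n]
    exact rep_n i
  · rw [map_mul]
    exact h1.mul h2
  · rw [map_inv]
    exact h1.inv

theorem fm_cell {g : D.grp k} {w : D.R.Aut} (h : Cell (GG D k) g w) :
    Cell (GG D F) (fm D f g) w := by
  obtain ⟨b, hb, n, b', hb', hn, rfl⟩ := h
  exact ⟨_, fm_Bo f hb, _, _, fm_Bo f hb', fm_rep f hn, by rw [map_mul, map_mul]⟩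

theorem std_fm (σ : F →+* F) : Std (GG D F) (fm D σ) σ 1 1 1 :=
  ⟨fun _ _ => rfl, fun i u => by simp [fm_x]⟩

/-- A coset of the torus which is stable has a fixed point. -/
theorem exists_fixed (g : D.grp F) : ∃ s, ∀ σ : F →+* F,
    (fm D σ g)⁻¹ * g ∈ (GG D F).T → fm D σ (g * GG_ok.hT s) = g * GG_ok.hT s := by
  have hΓ := GG_ok (D := D) (k := F)
  have hR := Chev.R_ok D
  obtain ⟨u, hu, n, w, hn, v, hv, rfl⟩ := hΓ.bruhat hR g
  obtain ⟨l, -, rfl⟩ := hR.exists_wd (J := Set.univ) hn.mem_W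
  obtain ⟨s, hs⟩ := hΓ.exists_hT (hΓ.rep_div hR hn (rep_nd l)).2
  have hsT : hΓ.hT s ∈ (GG D F).T := hΓ.hT_mem s
  have hv' : (hΓ.hT s)⁻¹ * v * (hΓ.hT s)⁻¹⁻¹ ∈ (GG D F).X (D.R.Inv (D.R.wd l)) :=
    hΓ.nm_T_X _ _ (inv_mem hsT) v hv
  have e : u * n * v * hΓ.hT s = u * (GG D F).nd l * ((hΓ.hT s)⁻¹ * v * (hΓ.hT s)⁻¹⁻¹) := by
    have e1 : (GG D F).nd l = n * hΓ.hT s := by rw [hs]; group
    rw [e1]
    group
  refine ⟨s, fun σ h => ?_⟩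
  have h1 : (fm D σ (u * n * v * hΓ.hT s))⁻¹ * (u * n * v * hΓ.hT s) ∈ (GG D F).T := by
    have e2 : (fm D σ (u * n * v * hΓ.hT s))⁻¹ * (u * n * v * hΓ.hT s) =
        (fm D σ (hΓ.hT s))⁻¹ * ((fm D σ (u * n * v))⁻¹ * (u * n * v)) * hΓ.hT s := by
      rw [map_mul (fm D σ) (u * n * v)]; group
    rw [e2]
    exact mul_mem (mul_mem (inv_mem (fm_T σ hsT)) h) hsT
  rw [e] at h1 ⊢
  generalize (hΓ.hT s)⁻¹ * v * (hΓ.hT s)⁻¹⁻¹ = v' at hv' h1 ⊢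
  obtain ⟨t, ht⟩ : ∃ t, t = (fm D σ (u * (GG D F).nd l * v'))⁻¹ * (u * (GG D F).nd l * v') :=
    ⟨_, rfl⟩
  rw [← ht] at h1
  have h2 : u * (GG D F).nd l * v' =
      fm D σ u * ((GG D F).nd l * t) * (t⁻¹ * fm D σ v' * t⁻¹⁻¹) := by
    have e3 : u * (GG D F).nd l * v' = fm D σ (u * (GG D F).nd l * v') * t := by
      rw [ht]; group
    rw [e3, map_mul, map_mul, fm_nd]
    group
  have h3 := (hΓ.bruhat_unique hR (rep_nd l) ((rep_nd l).mul_T h1) hu (fm_X σ hu) hv'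
    (hΓ.nm_T_X _ _ (inv_mem h1) _ (fm_X σ hv')) h2).2.1
  rw [left_eq_mul] at h3
  rw [h3] at ht
  exact inv_mul_eq_one.1 ht.symm

end

section

variable {k K : Type} [Field k] [Field K] [Algebra k K] [IsSepClosure k K]
  {L : IntermediateField k K}

theorem mem_of_fx {x : K} (h : ∀ σ : K ≃ₐ[k] K, Fx (L : Set K) σ → σ x = x) : x ∈ L := by
  rw [← InfiniteGalois.fixedField_fixingSubgroup L]
  exact fun σ => h σ.1 ((IntermediateField.mem_fixingSubgroup_iff _ _).1 σ.2)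

theorem desc_fx {D : Chev} (hD : SC D) {g : D.grp K}
    (h : ∀ σ : K ≃ₐ[k] K, Fx (L : Set K) σ → fm D (σ : K →+* K) g = g) :
    ∃ g₀, fm D (algebraMap L K) g₀ = g :=
  hD.desc _ fun a b => ⟨⟨g.1.1 a b, mem_of_fx fun σ hσ =>
    congrArg (fun x : D.grp K => x.1.1 a b) (h σ hσ)⟩, rfl⟩

omit [IsSepClosure k K] in
theorem fm_fx {D : Chev} (g₀ : D.grp L) {σ : K ≃ₐ[k] K} (hσ : Fx (L : Set K) σ) :
    fm D (σ : K →+* K) (fm D (algebraMap L K) g₀) = fm D (algebraMap L K) g₀ :=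
  Subtype.ext (Units.ext (Matrix.ext fun a b => hσ _ (g₀.1.1 a b).2))

theorem fx_iff [Normal k L] {σ : K ≃ₐ[k] K} :
    Fx (L : Set K) σ ↔ AlgEquiv.restrictNormalHom L σ = 1 := by
  rw [← MonoidHom.mem_ker, IntermediateField.restrictNormalHom_ker,
    IntermediateField.mem_fixingSubgroup_iff]
  rfl

theorem fx_conj [Normal k L] {σ : K ≃ₐ[k] K} (h : Fx (L : Set K) σ) (θ : K ≃ₐ[k] K) :
    Fx (L : Set K) (θ⁻¹ * σ * θ) := by
  rw [fx_iff] at h ⊢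
  rw [map_mul, map_mul, h, mul_one, ← map_mul, inv_mul_cancel, map_one]

theorem fx_pow [IsGalois k L] {l : ℕ} (hl : l.Prime) (hL : Module.finrank k L = l)
    (θ : K ≃ₐ[k] K) : Fx (L : Set K) (θ ^ l) := by
  have : FiniteDimensional k L := Module.finite_of_finrank_pos (hL ▸ hl.pos)
  rw [fx_iff, map_pow, ← hL, ← IsGalois.card_aut_eq_finrank, pow_card_eq_one']

theorem fx_gen [IsGalois k L] {l : ℕ} (hl : l.Prime) (hL : Module.finrank k L = l)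
    {θ : K ≃ₐ[k] K} (hθ : ¬Fx (L : Set K) θ) (σ : K ≃ₐ[k] K) :
    ∃ (τ : K ≃ₐ[k] K) (j : ℕ), Fx (L : Set K) τ ∧ σ = τ * θ ^ j := by
  have : FiniteDimensional k L := Module.finite_of_finrank_pos (hL ▸ hl.pos)
  have := Fact.mk hl
  obtain ⟨j, hj⟩ := mem_powers_of_prime_card (G := L ≃ₐ[k] L) (p := l)
    (by rw [IsGalois.card_aut_eq_finrank, hL]) (fun h => hθ (fx_iff.2 h))
    (g' := AlgEquiv.restrictNormalHom L σ)
  refine ⟨σ * (θ ^ j)⁻¹, j, ?_, by group⟩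
  rw [fx_iff, map_mul, map_inv, map_pow, ← hj, mul_inv_cancel]

end

end Vale.Agent.P011UCX
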