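import Vale.Agent.P011UCX.Kit
import Vale.Agent.P011UBL.Main

/-!
The cyclic step: from the building of the rational points to the group.
-/

set_option autoImplicit false
set_option linter.all false

namespace Vale.Agent.P011UCX

open Matrix Subgroup Vale.Agent.P011L Vale.Agent.P183CH Vale.Agent.P183CH.RG Vale.Agent.P011U
  Vale.Agent.P011UHB Vale.Agent.P011UP
open Vale.Agent.P011UC (pa)
open Vale.Agent.P011UQ (std_uniq std_mul)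
open Vale.Agent.P011UBL (cell_uniq cell_rep cell_l cell_r cell_PJ std_cell cell_Bo)

section

variable {R : RS} {K G : Type} [Field K] [Group G] {Γ : RG R K G} (hΓ : Γ.Ok) (hR : R.Ok)

include hΓ hR

/-- An element which stabilises an apartment normalises the torus. -/
theorem rep_of_apt {h n₀ n₁ n₂ : G} {w₀ a₁ a₂ : R.Aut} (h₀ : Γ.Rep n₀ w₀)
    (hw : ∀ j, w₀ (R.α j) ≤ 0) (h₁ : Γ.Rep n₁ a₁) (h₂ : Γ.Rep n₂ a₂) (e₁ : n₁⁻¹ * h ∈ Γ.Bo)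
    (e₂ : n₂⁻¹ * (h * n₀) ∈ Γ.Bo) : Γ.Rep h a₁ := by
  have hm := h₁.inv.mul h₂
  have e : n₁⁻¹ * h * n₀ = n₁⁻¹ * n₂ * (n₂⁻¹ * (h * n₀)) := by group
  have c1 : Cell Γ (n₁⁻¹ * h * n₀) w₀ := cell_l e₁ (cell_rep h₀)
  have c2 : Cell Γ (n₁⁻¹ * h * n₀) (a₁⁻¹ * a₂) := e ▸ cell_r e₂ (cell_rep hm)
  rw [← cell_uniq hΓ hR c1 c2] at hm
  have ht := (hΓ.rep_div hR h₀ hm).2
  have h3 := T_of_opp hΓ hR h₀ ⟨h₀.mem_W, fun j _ => hw j⟩ e₁ (mul_mem (T_le_Bo ht) e₂)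
    (by group)
  simpa using h₁.mul_T h3

end

variable {k K : Type} [Field k] [Field K] [Algebra k K] [IsSepClosure k K] {D : Chev}
  {T : Tw k (D.grp K)} {L : IntermediateField k K} {θ : K ≃ₐ[k] K}
  {π : Equiv.Perm (Fin D.R.r)} {g : D.grp K} {c : Fin D.R.r → Kˣ}

/-- `y` is rational over `L` -/
def Rt (L : IntermediateField k K) (y : D.grp K) : Prop :=
  ∀ σ : K ≃ₐ[k] K, Fx (L : Set K) σ → fm D (σ : K →+* K) y = y

theorem a_comm [Normal k L] (hs : Sp1 T L) {σ : K ≃ₐ[k] K} (hσ : Fx (L : Set K) σ)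
    (x : D.grp K) : fm D (σ : K →+* K) (T.a θ x) =
      T.a θ (fm D ((θ⁻¹ * σ * θ : K ≃ₐ[k] K) : K →+* K) x) := by
  rw [← hs σ hσ, ← hs _ (fx_conj hσ θ), ← MulAut.mul_apply, ← MulAut.mul_apply, ← map_mul,
    ← map_mul]
  congr 2
  group

theorem rt_a [Normal k L] (hs : Sp1 T L) {y : D.grp K} (hy : Rt L y) : Rt L (T.a θ y) :=
  fun σ hσ => by rw [a_comm hs hσ, hy _ (fx_conj hσ θ)]

theorem exists_rt [Normal k L] (hs : Sp1 T L) (h : Std (GG D K) (T.a θ) θ g c π) :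
    ∃ t ∈ (GG D K).T, ∃ c', Std (GG D K) (T.a θ) θ (g * t) c' π ∧ Rt L (g * t) := by
  obtain ⟨s, e⟩ := exists_fixed g
  refine ⟨_, GG_ok.hT_mem s, _, std_mul GG_ok (Chev.R_ok D) h s, fun σ hσ => e _ ?_⟩
  have h1 := Std.comp (std_fm (σ : K →+* K)) h
  have h2 := Std.comp (ψ := (T.a θ).toMonoidHom) (σ := (θ : K →+* K)) h
    (std_fm ((θ⁻¹ * σ * θ : K ≃ₐ[k] K) : K →+* K))
  have e1 : (fun x => fm D (σ : K →+* K) (T.a θ x)) = fun x => (T.a θ).toMonoidHom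
      (fm D ((θ⁻¹ * σ * θ : K ≃ₐ[k] K) : K →+* K) x) := funext (a_comm hs hσ)
  have e2 : (fun x => (σ : K →+* K) (θ x)) =
      fun x => (θ : K →+* K) (((θ⁻¹ * σ * θ : K ≃ₐ[k] K) : K →+* K) x) :=
    funext fun x => by simp
  rw [e1, e2] at h1
  obtain ⟨-, s', h3, -⟩ := std_uniq GG_ok (Chev.R_ok D) h2 h1 (by simp)
  rw [map_one, one_mul, mul_one] at h3
  exact h3 ▸ GG_ok.hT_mem s'

theorem iter (h : Std (GG D K) (T.a θ) θ g c π) {X : Type} {f : X → D.grp K} {ϑ : X → X}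
    (hϑ : ∀ x, f (ϑ x) = T.a θ (f x) * g) (j : ℕ) : ∃ g' c' π',
      Std (GG D K) (T.a (θ ^ j)) (θ ^ j : K ≃ₐ[k] K) g' c' π' ∧
        ∀ x, f (ϑ^[j] x) = T.a (θ ^ j) (f x) * g' := by
  induction j with
  | zero => exact ⟨1, 1, 1, ⟨fun _ _ => rfl, fun i u => by simp⟩, fun x => by simp⟩
  | succ j ih =>
    obtain ⟨g', c', π', h1, h2⟩ := ih
    have h3 := Std.comp (ψ := (T.a θ).toMonoidHom) (σ := (θ : K →+* K)) h h1
    rw [pow_succ', map_mul]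
    refine ⟨_, _, _, h3, fun x => ?_⟩
    rw [Function.iterate_succ_apply', hϑ, h2, map_mul, mul_assoc, MulAut.mul_apply]
    rfl

theorem fix_of [IsGalois k L] {l : ℕ} (hl : l.Prime) (hL : Module.finrank k L = l)
    (hθ : ¬Fx (L : Set K) θ) (hs : Sp1 T L) (h : Std (GG D K) (T.a θ) θ g c π) {y : D.grp K}
    (hy : Rt L y) {J : Set (Fin D.R.r)} (hJ : ∀ i, π i ∈ J ↔ i ∈ J)
    (hq : y⁻¹ * (T.a θ y * g) ∈ PJ (GG D K) J) : FixP T J := by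
  have hR := Chev.R_ok D
  have mul : ∀ σ τ : K ≃ₐ[k] K,
      (∀ p ∈ PJ (GG D K) J, y⁻¹ * T.a σ (y * p * y⁻¹) * y ∈ PJ (GG D K) J) →
      (∀ p ∈ PJ (GG D K) J, y⁻¹ * T.a τ (y * p * y⁻¹) * y ∈ PJ (GG D K) J) →
      ∀ p ∈ PJ (GG D K) J, y⁻¹ * T.a (σ * τ) (y * p * y⁻¹) * y ∈ PJ (GG D K) J :=
    fun σ τ h1 h2 p hp => by simpa [mul_assoc] using h1 _ (h2 p hp)
  have h1 : ∀ p ∈ PJ (GG D K) J, y⁻¹ * T.a θ (y * p * y⁻¹) * y ∈ PJ (GG D K) J := fun p hp => by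
    have h2 := std_par GG_ok hR (ψ := (T.a θ).toMonoidHom) (σ := (θ : K →+* K)) h hJ hp
    simpa [mul_assoc] using mul_mem (mul_mem hq h2) (inv_mem hq)
  refine ⟨y, fun σ => ?_⟩
  obtain ⟨τ, j, hτ, rfl⟩ := fx_gen hl hL hθ σ
  refine mul _ _ (fun p hp => ?_) ?_
  · have h2 := std_par GG_ok hR (std_fm (τ : K →+* K)) (J := J) (fun _ => Iff.rfl) hp
    rw [hs τ hτ, map_mul, map_mul, map_inv, hy τ hτ]
    simpa [mul_assoc] using h2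
  · induction j with
    | zero => exact fun p hp => by simpa [mul_assoc] using hp
    | succ j ih => exact pow_succ θ j ▸ mul _ _ ih h1

theorem cxg (cox : COX) (nfx : NFX) : CXG := by
  intro k K _ _ _ _ _ D hD T l L θ π y a hl C
  have hR := Chev.R_ok D
  have hΓ := GG_ok (D := D) (k := K)
  have hp : l.Prime := by
    rcases hl with rfl | ⟨rfl, -⟩
    exacts [Nat.prime_three, Nat.prime_five]
  have := C.gal
  obtain ⟨g₀, c₀, h₀, hc₀⟩ := C.pos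
  obtain ⟨t, ht, c, h, hg⟩ := exists_rt C.sp h₀
  have hc : Cell (GG D K) (y⁻¹ * (T.a θ y * (g₀ * t))) a := by
    simpa only [mul_assoc] using cell_r (T_le_Bo ht) hc₀
  generalize g₀ * t = g at h hg hc
  have h' : Std (GG D K) (T.a θ).toMonoidHom (θ : K →+* K) g c π := h
  let f := fm D (algebraMap L K)
  have hf : ∀ x, Rt L (f x) := fun x σ hσ => fm_fx x hσ
  choose ϑ hϑ using fun x : D.grp L => desc_fx (L := L) hD (g := T.a θ (f x) * g) fun σ hσ => by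
    rw [map_mul, rt_a C.sp (hf x) σ hσ, hg σ hσ]
  replace hϑ : ∀ x, f (ϑ x) = T.a θ (f x) * g := hϑ
  obtain ⟨δ, hB, h1, -, -, h4⟩ := P011UBL.blg D.R L _ (GG D L) hR GG_ok
  have k1 : ∀ x z, Cell (GG D K) ((f x)⁻¹ * f z) (δ x z) := fun x z => by
    simpa only [map_mul, map_inv] using fm_cell (algebraMap L K) ((h1 x z _).2 rfl)
  have k2 : ∀ {x z w}, Cell (GG D K) ((f x)⁻¹ * f z) w → δ x z = w := fun e =>
    cell_uniq hΓ hR (k1 _ _) e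
  have k3 : ∀ {x z}, δ x z = 1 → (f x)⁻¹ * f z ∈ (GG D K).Bo := fun {x z} e =>
    bo_of_cell hΓ hR (e ▸ k1 x z)
  have hA : Au D.R δ ϑ π := ⟨h.1, fun x z => k2 (by
    have h2 := std_cell hΓ hR h' (k1 x z)
    rw [hϑ, hϑ]
    simpa [mul_assoc] using h2)⟩
  have hl' : ∀ x, δ x (ϑ^[l] x) = 1 := fun x => by
    obtain ⟨g', c', π', h2, h3⟩ := iter h hϑ l
    have h5 := fx_pow hp C.deg θ
    have h6 : Std (GG D K) (T.a (θ ^ l)) (θ ^ l : K ≃ₐ[k] K) 1 1 1 := by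
      rw [show ⇑(T.a (θ ^ l)) = _ from funext (C.sp _ h5)]
      exact std_fm _
    obtain ⟨-, s, h7, -⟩ := std_uniq hΓ hR h2 h6 (map_one _)
    refine k2 ?_
    rw [h3, C.sp _ h5, hf x _ h5, inv_mul_cancel_left]
    rw [inv_one, one_mul] at h7
    exact cell_Bo (T_le_Bo (h7 ▸ hΓ.hT_mem s))
  obtain ⟨x, hx, ⟨J, hJ, h2, h3⟩ | h2 | ⟨h2, z, h5, h6, h7⟩⟩ :=
    cox D.R hR _ δ ϑ π hB hA ⟨1⟩ l hl hl'
  · exact Or.inl (iso_of_fix nfx k K D hD T J hJ (fix_of hp C.deg C.ne C.sp h (hf x) h3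
      (hϑ x ▸ (cell_PJ hΓ hR (k1 x (ϑ x))).1 h2)))
  · refine Or.inr (Or.inl ⟨f x, _, ⟨C.deg, C.gal, C.ne, C.sp, hf x, g, c, h, ?_⟩, ?_, h2⟩)
    · rw [mul_assoc, ← hϑ]
      exact k1 _ _
    · obtain ⟨y₀, rfl⟩ := desc_fx hD C.fix
      rw [← k2 (x := y₀) (z := ϑ y₀) (w := a) (by rwa [hϑ])]
      exact hx y₀
  have : Algebra.IsAlgebraic k K := inferInstance
  obtain ⟨n₀, -, h₀⟩ := exists_rep' (Γ := GG D L) (hB.mem x z)
  obtain ⟨n₁, -, h₁⟩ := exists_rep' (Γ := GG D L) (hB.mem x (ϑ x))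
  obtain ⟨n₂, -, h₂⟩ := exists_rep' (Γ := GG D L) (hB.mem x (ϑ z))
  obtain ⟨x', e1, e2, e3⟩ := h4 x z n₀ _ h₀ h5 rfl
  have a1 : ∀ {u v}, δ u v = 1 → ∀ {u'}, δ (ϑ u) u' = 1 → (f u')⁻¹ * f (ϑ v) ∈ (GG D K).Bo :=
    fun {u v} e {u'} e' => by
      have e4 : δ (ϑ u) (ϑ v) = 1 := by rw [hA.2, e, mul_one, mul_inv_cancel]
      simpa [mul_assoc] using mul_mem (inv_mem (k3 e')) (k3 e4)
  have b1 := a1 e1 (e3 _ h6 n₁ h₁)
  have b2 := a1 e2 (e3 _ h7 n₂ h₂)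
  have r := rep_of_apt hΓ hR (h := (f x')⁻¹ * (T.a θ (f x') * g))
    (std_rep hΓ hR h' (fm_rep (algebraMap L K) h₀)) (pa_neg h5) (fm_rep (algebraMap L K) h₁)
    (fm_rep (algebraMap L K) h₂) (by simpa [hϑ, mul_assoc] using b1)
    (by simpa [hϑ, mul_assoc] using b2)
  have hS : Std (GG D K) ((cj T (f x')).a θ).toMonoidHom (θ : K →+* K)
      ((f x')⁻¹ * (T.a θ (f x') * g)) c π := ⟨h.1, fun i u => by
    have e := h.2 i u
    constructor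
    · show (cj T (f x')).a θ _ = _
      rw [cj_a, map_mul, map_mul, e.1, map_inv]
      simp [mul_assoc]
    · show (cj T (f x')).a θ _ = _
      rw [cj_a, map_mul, map_mul, e.2, map_inv]
      simp [mul_assoc]⟩
  obtain ⟨χ, c1, c2⟩ := P011UBL.nmx _ _ _ _ hR hΓ _ _ _ _ _ _ hS r
  refine Or.inr (Or.inr ⟨cj T (f x'), _, χ, eqv_cj T _, fun σ hσ v => ?_,
    ⟨_, hB.mem _ _, π, h.1, rfl⟩, h2, c1, c2⟩)
  rw [cj_a, C.sp σ hσ, map_mul, map_mul, map_inv, hf x' σ hσ]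
  group

end Vale.Agent.P011UCX
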