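import Vale.Agent.P011UCX.Kit
import Vale.Agent.P011UBL.Main
import Vale.Agent.P011UIV.Main
import Vale.Agent.P011UHN.Kit
import Vale.Agent.P011UD.Aut

/-!
The steps of degree three and five, and the descent along towers.
-/

set_option autoImplicit false
set_option linter.all false

namespace Vale.Agent.P011UCX

open Matrix Subgroup Vale.Agent.P011L Vale.Agent.P183CH Vale.Agent.P183CH.RG Vale.Agent.P011U
  Vale.Agent.P011UHB Vale.Agent.P011UP
open Vale.Agent.P011UC (pa res res_res)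
open Vale.Agent.P011UIV (inv sta glob_fin res_lift)

/-- DS: the descent along a tower whose degrees are less than `l`. -/
def DS (n l : ℕ) : Prop := AllG fun k K _ _ _ D T => D.R.r ≤ n → NoR k → Lift T → ¬TyA D.R →
  Od D.R l → Per T l ∅ → In3 T ∅ → (l = 5 → In1 T ∅) → ∀ F : IntermediateField k K,
    Up {p | p < l} ⊥ F → QS T F → FixP T ∅

theorem PJ_empty {R : RS} {K G : Type} [Field K] [Group G] {Γ : RG R K G} : PJ Γ ∅ = Γ.Bo :=
  le_antisymm (sup_le (sup_le ((X_mono (S' := {γ | 0 ≤ γ}) fun γ h _ (i : Fin R.r) =>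
    (h i id).ge).trans U_le_Bo) T_le_Bo) U_le_Bo)
    (sup_le le_sup_right (le_sup_right.trans le_sup_left))

theorem glob_inf {k : Type} [Field k] (h : Glob k) : Infinite k := by
  rcases h with h | ⟨F, _, _, _, h⟩
  · exact .of_injective _ (Nat.cast_injective (R := k))
  · have : Infinite (RatFunc F) := .of_injective _ (RatFunc.algebraMap_injective F)
    exact .of_injective _ (algebraMap (RatFunc F) k).injective

theorem od_prime {R : RS} {l : ℕ} (h : Od R l) : l.Prime ∧ Odd l := by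
  rcases h with rfl | ⟨rfl, -⟩
  exacts [⟨Nat.prime_three, by decide⟩, ⟨Nat.prime_five, by decide⟩]

section

variable {k K : Type} [Field k] [Field K] [Algebra k K] {D : Chev} {T : Tw k (D.grp K)}
  {A B : IntermediateField k K} {S : Set K}

theorem fx_empty (σ : K ≃ₐ[k] K) : Fx ∅ σ := fun _ h => h.elim

theorem qs_iff : QS T ∅ ↔ FixP T ∅ := by
  rw [FixP, PJ_empty]
  exact exists_congr fun y => forall_congr' fun σ => ⟨fun h => h (fx_empty σ), fun h _ => h⟩

theorem nor_up (h : NoR k) (A : IntermediateField k K) : NoR A :=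
  ⟨fun f => h.1 (f.comp (algebraMap k A))⟩

theorem sep_up [IsSepClosure k K] (A : IntermediateField k K) : IsSepClosure A K :=
  ⟨IsSepClosure.sep_closed k, Algebra.isSeparable_tower_top_of_isSeparable k A K⟩

theorem up_fin {P : Set ℕ} (h : Up P A B) (hA : FiniteDimensional k A) : FiniteDimensional k B := by
  induction h with
  | refl => exact hA
  | tail _ h2 ih =>
    obtain ⟨l, -, hl, M, rfl, h3, -⟩ := h2
    have := Module.finite_of_finrank_pos (h3 ▸ hl.pos)
    rename_i B _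
    exact FiniteDimensional.trans k B M

variable [Algebra.IsAlgebraic k K]

theorem qs_res (h : QS T S) : QS (res T A) S :=
  let ⟨y, h⟩ := h
  ⟨y, fun σ hσ => h (σ.restrictScalars k) hσ⟩

theorem qs_of_res (h : FixP (res T A) ∅) : QS T A :=
  let ⟨y, h⟩ := qs_iff.2 h
  ⟨y, fun σ hσ => h (A.fixingSubgroupEquiv
    ⟨σ, (IntermediateField.mem_fixingSubgroup_iff A σ).2 hσ⟩) (fx_empty _)⟩

theorem in1_res (h : In1 T ∅) : In1 (res T A) S := fun σ _ => h (σ.restrictScalars k) (fx_empty _)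

theorem in3_res (h : In3 T ∅) : In3 (res T A) S := fun σ _ => h (σ.restrictScalars k) (fx_empty _)

theorem per_res {l l' : ℕ} (h : Per T l ∅) (hl : l' ≤ l) : Per (res T A) l' ∅ :=
  fun p h1 h2 h3 =>
    let ⟨N, h4, Φ, g, c, h5, h6⟩ := h p h1 (h2.trans_le hl) h3
    ⟨N, h4, Φ, g, c, h5, fun σ _ => h6 (σ.restrictScalars k) (fx_empty _)⟩

/-- The descent along a tower. -/
theorem dsc {P : Set ℕ} (st : ∀ p ∈ P, p.Prime → ∀ A : IntermediateField k K,
    FiniteDimensional k A → ∀ M : IntermediateField A K, Module.finrank A M = p → IsGalois A M →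
      QS (res T A) M → FixP (res T A) ∅) (h : Up P A B) (hA : FiniteDimensional k A)
    (hB : QS T B) : QS T A := by
  induction h with
  | refl => exact hB
  | tail h1 h2 ih =>
    obtain ⟨l, h3, hl, M, rfl, h4, h5⟩ := h2
    exact ih (qs_of_res (st l h3 hl _ (up_fin h1 hA) M h4 h5 (qs_res hB)))

omit [Algebra.IsAlgebraic k K] in
theorem fix_of_bot (h : QS T (⊥ : IntermediateField k K)) : FixP T ∅ :=
  let ⟨y, h⟩ := h
  qs_iff.1 ⟨y, fun σ _ => h σ fun x hx => by
    obtain ⟨a, rfl⟩ := IntermediateField.mem_bot.1 hx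
    exact σ.commutes a⟩

end

theorem ds3 {n : ℕ} (st2 : ST2 n) : DS n 3 := by
  intro k K _ _ _ _ D hk hD T hr hn hl hA _ _ h3 _ F hF hq
  refine fix_of_bot (dsc (fun p h1 hp A _ M h4 _ h6 => ?_) hF inferInstance hq)
  have := sep_up A
  obtain rfl : p = 2 := le_antisymm (Nat.lt_succ_iff.1 h1) hp.two_le
  exact st2 A K D (glob_fin hk) hD _ hr (nor_up hn A) (res_lift (res_res T A) hl) M h4 h6
    (.inl ⟨hA, in3_res h3⟩)

theorem ds5 {n : ℕ} (st2 : ST2 n) (st3 : STL n 3) : DS n 5 := by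
  intro k K _ _ _ _ D hk hD T hr hn hl hA _ hP h3 h5 F hF hq
  refine fix_of_bot (dsc (fun p h1 hp A _ M h4 hM h6 => ?_) hF inferInstance hq)
  have := sep_up A
  have h7 : p = 2 ∨ p = 3 := by
    have h8 := hp.two_le
    have h9 : p < 5 := h1
    have : p ≠ 4 := fun e => absurd (e ▸ hp) (by decide)
    omega
  rcases h7 with rfl | rfl
  · exact st2 A K D (glob_fin hk) hD _ hr (nor_up hn A) (res_lift (res_res T A) hl) M h4 h6
      (.inl ⟨hA, in3_res h3⟩)
  · exact st3 A K D (glob_fin hk) hD _ hr (nor_up hn A) (res_lift (res_res T A) hl) hA (.inl rfl)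
      (per_res hP (by decide)) M h4 hM h6 (in1_res (h5 rfl))

/-- The end case of the cyclic step. -/
theorem end_of (enc : ENC) (mov : MOV) : AllG fun k K _ _ _ D T => NoR k → ∀ (l : ℕ)
    (L : IntermediateField k K) (θ : K ≃ₐ[k] K) w χ, Od D.R l → ¬(D.R.r = 2 ∧ TyA D.R) →
    Module.finrank k L = l → IsGalois k L → ¬Fx (L : Set K) θ → Sp1 T L → Ext D.R w →
    Cyz D.R l w → Ml χ → Nm (GG D K) D.R.Φ (T.a θ) θ w χ → ¬T.Ani := by
  intro k K _ _ _ _ D hk hD T hn l L θ w χ hl hA h1 h2 h3 h4 h5 h6 h7 h8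
  have hR := Chev.R_ok D
  have : NeZero l := ⟨(od_prime hl).1.ne_zero⟩
  obtain ⟨ρ, s, e1, e2, e3⟩ := enc D.R hR l hl hA w h5 h6
  refine mov k K D hk hD T hn l L θ w χ ρ s (od_prime hl).1 h1 h2 h3 e1 e2 D.R.Φ subset_rfl
    (fun γ h => P011UHN.ext_mem hR h5 h) e1.mem (fun γ _ σ hσ u => by rw [h4 σ hσ, fm_x]; rfl) h8
    (e3.imp (fun e => ⟨h7, (od_prime hl).2, e⟩) fun ⟨ρ', s', y, a1, a2, a3⟩ =>
      ⟨ρ', s', y, a1, a2, a1.mem, a3⟩)

section

variable (nrm : NRM) (cxg : CXG) (red : RED) (enc : ENC) (mov : MOV) (isq : ISQ) (eqa : EQA)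
  {n l : ℕ} (hb : HBlt n) (ds : DS n l)

include cxg red enc mov isq eqa hb ds

theorem core (m : ℕ) : AllG fun k K _ _ _ D T => D.R.r ≤ n → NoR k → Lift T → ¬TyA D.R →
    Od D.R l → Per T l ∅ → In3 T ∅ → (l = 5 → In1 T ∅) → ∀ L θ π y a, Cy T l L θ π y a →
      D.R.len a < m → FixP T ∅ := by
  induction m with
  | zero => exact fun _ _ _ _ _ _ _ _ _ _ _ _ _ _ _ _ _ _ _ _ _ _ _ _ h => absurd h (by simp)
  | succ m ih =>
    intro k K _ _ _ _ D hk hD T hr hn hL hA hl hP h3 h5 L θ π y a C hm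
    have := glob_inf hk
    rcases cxg k K D hD T l L θ π y a hl C with h | ⟨y', a', C', h1, h2⟩ |
      ⟨T', w, χ, e, h1, h2, h4, h6, h7⟩
    · exact isq n hb k K D hk hD T hr hn hL h
    · obtain ⟨T', F, e, hF, h4⟩ := red k K D hD T l L θ π y' a' hl hP C' h2
      obtain ⟨L', θ', y'', a'', C'', h6⟩ := h4 _ (res_res T' F)
      have := up_fin hF inferInstance
      have := sep_up F
      obtain ⟨e', i1, i2⟩ := (inv k K D hD T).1 T' e
      obtain ⟨-, i3, i4, i5⟩ := i2 ∅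
      have h7 := ih F K D (glob_fin hk) hD _ hr (nor_up hn F) (res_lift (res_res T' F) (i1 hL)) hA
        hl (per_res (i5 l hP) le_rfl) (in3_res (i4 h3)) (fun h => in1_res (i3 (h5 h))) _ _ _ _ _
        C'' (by omega)
      exact ds k K D hk hD T hr hn hL hA hl hP h3 h5 F hF
        ((((inv k K D hD T').1 T e').2.2 _).1 (qs_of_res h7))
    · exact isq n hb k K D hk hD T hr hn hL fun an => end_of enc mov k K D hk hD T' hn l L θ w χ hl
        (fun h => hA h.2) C.deg C.gal C.ne h1 h2 h4 h6 h7 (eqa k K D hD T T' e an)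

include nrm

theorem stl_of : STL n l := by
  intro k K _ _ _ _ D hk hD T hr hn hL hA hl hP L h1 h2 hq h4
  have := glob_inf hk
  have hp := (od_prime hl).1
  have : FiniteDimensional k L := Module.finite_of_finrank_pos (h1 ▸ hp.pos)
  obtain ⟨T', e, hs⟩ := nrm k K D hD T L this hq h4
  obtain ⟨e', i1, i2⟩ := (inv k K D hD T).1 T' e
  obtain ⟨π, s1, s2, -⟩ := sta k K D hD T'
  have h5 : l = 5 → In1 T' ∅ := fun h σ _ => by
    obtain ⟨g, c, h6⟩ := s1 σ
    rcases hl with rfl | ⟨-, e, he⟩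
    · omega
    have h7 := P011UD.autE8 (p := e.permCongr (π σ)) fun a b => by
      rw [Equiv.permCongr_apply, Equiv.permCongr_apply, ← he, h6.1, he, e.apply_symm_apply,
        e.apply_symm_apply]
    rw [show π σ = 1 from e.permCongr.injective (h7.trans (by ext; simp))] at h6
    exact ⟨g, c, h6⟩
  have h3 : In3 T' ∅ := fun σ hσ => by
    rcases hl with rfl | ⟨rfl, -⟩
    · obtain ⟨g, c, h6⟩ := s1 σ
      obtain ⟨g', c', h7⟩ := (i2 L).2.1 h4 _ (fx_pow hp h1 σ)
      exact ⟨g, c, _, h6, by rw [← map_pow, ← s2 _ _ _ _ h7]⟩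
    · obtain ⟨g, c, h6⟩ := h5 rfl σ hσ
      exact ⟨g, c, 1, h6, one_pow _⟩
  obtain ⟨θ, hθ⟩ : ∃ θ : K ≃ₐ[k] K, ¬Fx (L : Set K) θ := by
    by_contra c
    obtain rfl : L = ⊥ := le_bot_iff.1 fun x hx =>
      mem_of_fx fun σ _ => not_not.1 (fun h => c ⟨σ, h⟩) x hx
    exact hp.one_lt.ne (IntermediateField.finrank_bot.symm.trans h1)
  obtain ⟨g, c, h6⟩ := s1 θ
  obtain ⟨a, ha⟩ := P011UBL.cell_ex GG_ok (Chev.R_ok D) ((1 : D.grp K)⁻¹ * T'.a θ 1 * g)
  exact qs_iff.1 ((((inv k K D hD T').1 T e').2.2 _).1 (qs_iff.2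
    (core cxg red enc mov isq eqa hb ds _ k K D hk hD T' hr hn (i1 hL) hA hl ((i2 ∅).2.2.2 l hP)
      h3 h5 L θ _ 1 a ⟨h1, h2, hθ, hs, fun σ _ => map_one _, g, c, h6, ha⟩ (Nat.lt_succ_self _))))

end

/-- The steps of degree three and five from the quadratic step. -/
theorem stl (nrm : NRM) (cxg : CXG) (red : RED) (enc : ENC) (mov : MOV) (isq : ISQ) (eqa : EQA)
    {n : ℕ} (hb : HBlt n) (st2 : ST2 n) : STL n 3 ∧ STL n 5 :=
  have h := stl_of nrm cxg red enc mov isq eqa hb (ds3 st2)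
  ⟨h, stl_of nrm cxg red enc mov isq eqa hb (ds5 st2 h)⟩

end Vale.Agent.P011UCX
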